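import Mathlib
import Vale.Agent.P006.CR.Basic
import Vale.Agent.P006.CLS.Add

/-!
# P006, block CLS, part 2: the additive large sieve at the Farey points of `ℤ[ω]`
-/

namespace Vale.Agent.P006.CLS

open Finset Vale.Agent.P001

open scoped ComplexConjugate

lemma ee_eq_e (x : ℝ) : ee x = e x := by
  unfold ee e
  congr 1
  push_cast
  ring

/-- `√-3 = 1 + 2ω`. -/
def rt : O := ⟨1, 2⟩

lemma rt_mul_rt : rt * rt = -3 := by decide

lemma N_rt : N rt = 3 := by decide

lemma trC_omC_mul (z : ℂ) : TrC (omC * z) = -z.re - Real.sqrt 3 * z.im := by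
  simp [TrC, omC]
  ring

lemma trC_mul_eq (n : O) (z : ℂ) :
    TrC (toC n * z) = n.re * TrC z + n.im * TrC (omC * z) := by
  rw [toC_apply, add_mul, TrC_add, mul_assoc]
  have h1 : ∀ (k : ℤ) (w : ℂ), TrC ((k : ℂ) * w) = k * TrC w := by
    intro k w
    simp [TrC]
    ring
  rw [h1, h1]

/-- coordinates control the absolute value -/
lemma norm_le_max_trC (z : ℂ) : ‖z‖ ≤ max |TrC z| |TrC (omC * z)| := by
  set D := max |TrC z| |TrC (omC * z)| with hD
  have h1 : |TrC z| ≤ D := le_max_left _ _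
  have h2 : |TrC (omC * z)| ≤ D := le_max_right _ _
  have hD0 : 0 ≤ D := (abs_nonneg _).trans h1
  rw [trC_omC_mul] at h2
  rw [TrC] at h1
  have h3 : Real.sqrt 3 * Real.sqrt 3 = 3 := Real.mul_self_sqrt (by norm_num)
  have h4 : ‖z‖ ^ 2 ≤ D ^ 2 := by
    rw [← Complex.normSq_eq_norm_sq, Complex.normSq_apply]
    rw [abs_le] at h1 h2
    -- 4(x²+y²) with 2x = ε₁, -x - √3 y = ε₂
    set w := Real.sqrt 3 * z.im with hw
    have h5 : z.im * z.im = w * w / 3 := by
      rw [hw]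
      have : Real.sqrt 3 * z.im * (Real.sqrt 3 * z.im) = (Real.sqrt 3 * Real.sqrt 3) * (z.im * z.im) := by
        ring
      rw [this, h3]; ring
    rw [h5]
    nlinarith [h1.1, h1.2, h2.1, h2.2, mul_nonneg (sub_nonneg.mpr h1.2) (sub_nonneg.mpr h2.2),
      mul_nonneg (by linarith [h1.1] : (0:ℝ) ≤ D + 2 * z.re) (by linarith [h2.1] : (0:ℝ) ≤ D + (-z.re - w)),
      mul_nonneg (sub_nonneg.mpr h1.2) (by linarith [h1.1] : (0:ℝ) ≤ D + 2 * z.re),
      mul_nonneg (sub_nonneg.mpr h2.2) (by linarith [h2.1] : (0:ℝ) ≤ D + (-z.re - w)),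
      mul_nonneg (sub_nonneg.mpr h1.2) (by linarith [h2.1] : (0:ℝ) ≤ D + (-z.re - w)),
      mul_nonneg (by linarith [h1.1] : (0:ℝ) ≤ D + 2 * z.re) (sub_nonneg.mpr h2.2)]
  exact le_of_sq_le_sq h4 hD0

/-- the element of the dual lattice with given traces -/
lemma dual_elt (m n : ℤ) :
    TrC (toC ⟨m + n, m⟩ / toC rt) = m ∧ TrC (omC * (toC ⟨m + n, m⟩ / toC rt)) = n := by
  have hrt : toC rt * toC rt = -3 := by
    rw [← map_mul, rt_mul_rt, map_neg]
    have : toC 3 = 3 := by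
      have h := toC_natCast 3
      simpa using h
    rw [this]
  have hrt0 : toC rt ≠ 0 := by
    intro h
    rw [h] at hrt
    norm_num at hrt
  have h1 : ∀ w : ℂ, w / toC rt = -(w * toC rt) / 3 := by
    intro w
    rw [div_eq_div_iff hrt0 (by norm_num)]
    linear_combination w * hrt
  have h3 : Real.sqrt 3 * Real.sqrt 3 = 3 := Real.mul_self_sqrt (by norm_num)
  constructor
  · rw [h1]
    simp [TrC, toC_apply, omC, rt]
    linear_combination ((m : ℝ) / 3) * h3
  · rw [h1]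
    simp [TrC, toC_apply, omC, rt]
    linear_combination ((n : ℝ) / 3) * h3

lemma one_le_norm_toC {z : O} (h : z ≠ 0) : 1 ≤ ‖toC z‖ := by
  have h1 : 1 ≤ N z := N_pos h
  have h2 : (1 : ℝ) ≤ ‖toC z‖ ^ 2 := by
    rw [← N_eq_sq_norm]; exact_mod_cast h1
  have h3 := norm_nonneg (toC z)
  nlinarith

lemma coprime_rt {q : O} (hq : (3 : O) ∣ q - 1) : IsCoprime rt q := by
  obtain ⟨k, hk⟩ := hq
  have h := rt_mul_rt
  refine ⟨rt * k, 1, ?_⟩
  have : q = 1 + 3 * k := by linear_combination hk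
  rw [this]
  linear_combination k * h

/-- units congruent to 1 mod 3 are 1 -/
lemma unit_eq_one {u : O} (hu : IsUnit u) (h3 : (3 : O) ∣ u - 1) : u = 1 := by
  rw [isUnit_iff_N] at hu
  obtain ⟨k, hk⟩ := h3
  have h1 : u = 1 + 3 * k := by linear_combination hk
  have h2 := N_cast_int' u
  rw [hu, h1] at h2
  simp only [QuadraticAlgebra.re_add, QuadraticAlgebra.im_add, QuadraticAlgebra.re_one,
    QuadraticAlgebra.im_one, QuadraticAlgebra.re_mul, QuadraticAlgebra.im_mul,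
    show (3 : O).re = 3 from rfl, show (3 : O).im = 0 from rfl] at h2
  have h4 : k.re = 0 ∧ k.im = 0 := by
    set x := k.re
    set y := k.im
    have h5 : 3 * (x * x - x * y + y * y) + (2 * x - y) = 0 := by
      push_cast at h2
      nlinarith
    constructor
    · by_contra hx
      rcases lt_or_gt_of_ne hx with hx | hx <;> nlinarith [sq_nonneg (x - 2 * y), sq_nonneg (2 * x - y), sq_nonneg (x - y), sq_nonneg x, sq_nonneg y, sq_nonneg (x+1), sq_nonneg (y - 1), sq_nonneg (y+1)]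
    · by_contra hy
      rcases lt_or_gt_of_ne hy with hy | hy <;> nlinarith [sq_nonneg (x - 2 * y), sq_nonneg (2 * x - y), sq_nonneg (x - y), sq_nonneg x, sq_nonneg y, sq_nonneg (x+1), sq_nonneg (y - 1), sq_nonneg (y+1)]
  have h6 : k = 0 := QuadraticAlgebra.ext h4.1 h4.2
  rw [h1, h6]; ring

/-- Two reduced fractions with primary denominators which agree modulo `O` are equal. -/
lemma frac_unique {q q' a a' h : O} (hq : (3 : O) ∣ q - 1) (hq' : (3 : O) ∣ q' - 1)
    (ha : IsCoprime a q) (ha' : IsCoprime a' q') (heq : a * q' - a' * q = h * (q * q')) :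
    q = q' ∧ q ∣ a - a' := by
  have hq0 : q ≠ 0 := by
    rintro rfl
    obtain ⟨k, hk⟩ := hq
    have h1 : IsUnit (3 : O) := IsUnit.of_mul_eq_one (-k) (by linear_combination hk)
    rw [isUnit_iff_N] at h1
    exact absurd h1 (by decide)
  have h1 : q ∣ q' := by
    have h2 : q ∣ a * q' := ⟨a' + h * q', by linear_combination heq⟩
    exact ha.symm.dvd_of_dvd_mul_left h2
  have h2 : q' ∣ q := by
    have h3 : q' ∣ a' * q := ⟨a - h * q, by linear_combination -heq⟩
    exact ha'.symm.dvd_of_dvd_mul_left h3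
  obtain ⟨u, hu⟩ := h1
  obtain ⟨v, hv⟩ := h2
  have huv : u * v = 1 := by
    have : q * (u * v) = q * 1 := by rw [← mul_assoc, ← hu, mul_one]; exact hv.symm
    exact mul_left_cancel₀ hq0 this
  have hu1 : IsUnit u := IsUnit.of_mul_eq_one v huv
  have hu3 : (3 : O) ∣ u - 1 := by
    obtain ⟨k, hk⟩ := hq
    obtain ⟨l, hl⟩ := hq'
    refine ⟨l - k * u, ?_⟩
    rw [hu] at hl
    linear_combination hl - u * hk
  have hu2 := unit_eq_one hu1 hu3
  rw [hu2, mul_one] at hu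
  refine ⟨hu.symm, h, ?_⟩
  rw [hu] at heq
  have : q * (a - a') = q * (q * h) := by linear_combination heq
  exact mul_left_cancel₀ hq0 this

/-- data of a finite family of distinct reduced fractions -/
structure FareyFam {ι : Type*} (R : Finset ι) (a q : ι → O) (Q : ℝ) : Prop where
  prim : ∀ r ∈ R, (3 : O) ∣ q r - 1
  cop : ∀ r ∈ R, IsCoprime (a r) (q r)
  le : ∀ r ∈ R, (N (q r) : ℝ) ≤ Q
  inj : ∀ r ∈ R, ∀ s ∈ R, q r = q s → q r ∣ a r - a s → r = s

lemma farey_sep {ι : Type*} {R : Finset ι} {a q : ι → O} {Q : ℝ} (h : FareyFam R a q Q)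
    (hQ : 0 < Q) :
    Sep R (fun r => TrC (toC (a r) / toC (q r)))
      (fun r => TrC (omC * (toC (a r) / toC (q r)))) (1 / (2 * Q)) := by
  intro r hr s hs hrs m n
  have hq0 : ∀ t ∈ R, q t ≠ 0 := by
    intro t ht h0
    obtain ⟨k, hk⟩ := h.prim t ht
    rw [h0] at hk
    have h1 : IsUnit (3 : O) := IsUnit.of_mul_eq_one (-k) (by linear_combination hk)
    rw [isUnit_iff_N] at h1
    exact absurd h1 (by decide)
  set α := toC (a r) / toC (q r) with hα
  set α' := toC (a s) / toC (q s) with hα'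
  set γ := toC ⟨m + n, m⟩ / toC rt with hγ
  obtain ⟨hγ1, hγ2⟩ := dual_elt m n
  have e1 : TrC α - TrC α' - m = TrC (α - α' - γ) := by
    rw [← hγ1, ← hγ]
    simp only [TrC, Complex.sub_re]
    ring
  have e2 : TrC (omC * α) - TrC (omC * α') - n = TrC (omC * (α - α' - γ)) := by
    rw [← hγ2, ← hγ]
    rw [mul_sub, mul_sub]
    simp only [TrC, Complex.sub_re]
    ring
  rw [e1, e2]
  refine le_trans ?_ (norm_le_max_trC _)
  have hqr := hq0 r hr
  have hqs := hq0 s hs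
  have hrt0 : toC rt ≠ 0 := by
    rw [Ne, toC_eq_zero]; decide
  have hqr' : toC (q r) ≠ 0 := by rwa [Ne, toC_eq_zero]
  have hqs' : toC (q s) ≠ 0 := by rwa [Ne, toC_eq_zero]
  set z : O := rt * (a r * q s - a s * q r) - ⟨m + n, m⟩ * (q r * q s) with hz
  have hzeq : (α - α' - γ) * (toC rt * toC (q r) * toC (q s)) = toC z := by
    rw [hz, hα, hα', hγ]
    simp only [map_sub, map_mul]
    field_simp
  have hz0 : z ≠ 0 := by
    intro hz0
    have h1 : rt ∣ (⟨m + n, m⟩ : O) * (q r * q s) := ⟨a r * q s - a s * q r, by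
      rw [hz0] at hz; linear_combination hz⟩
    have h2 : IsCoprime rt (q r * q s) :=
      IsCoprime.mul_right (coprime_rt (h.prim r hr)) (coprime_rt (h.prim s hs))
    have h3 : rt ∣ (⟨m + n, m⟩ : O) := h2.dvd_of_dvd_mul_right h1
    obtain ⟨g, hg⟩ := h3
    have h4 : a r * q s - a s * q r = g * (q r * q s) := by
      have h5 : rt * (a r * q s - a s * q r) = rt * (g * (q r * q s)) := by
        rw [hz0, hg] at hz
        linear_combination -hz
      exact mul_left_cancel₀ (by decide) h5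
    obtain ⟨h6, h7⟩ := frac_unique (h.prim r hr) (h.prim s hs) (h.cop r hr) (h.cop s hs) h4
    exact hrs (h.inj r hr s hs h6 h7)
  have h1 := one_le_norm_toC hz0
  rw [← hzeq, norm_mul, norm_mul, norm_mul] at h1
  have hn1 : ‖toC rt‖ ≤ 2 := by
    have : ‖toC rt‖ ^ 2 = 3 := by rw [← N_eq_sq_norm, N_rt]; norm_num
    nlinarith [norm_nonneg (toC rt)]
  have hn2 : ‖toC (q r)‖ * ‖toC (q s)‖ ≤ Q := by
    have ha : ‖toC (q r)‖ ^ 2 ≤ Q := by rw [← N_eq_sq_norm]; exact h.le r hr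
    have hb : ‖toC (q s)‖ ^ 2 ≤ Q := by rw [← N_eq_sq_norm]; exact h.le s hs
    nlinarith [sq_nonneg (‖toC (q r)‖ - ‖toC (q s)‖)]
  have h2 : 1 ≤ ‖α - α' - γ‖ * (2 * Q) := by
    refine h1.trans ?_
    apply mul_le_mul_of_nonneg_left _ (norm_nonneg _)
    rw [mul_assoc]
    exact mul_le_mul hn1 hn2 (by positivity) (by norm_num)
  rw [div_le_iff₀ (by positivity)]
  exact h2

lemma abs_le_of_N_le {n : O} {X : ℝ} (h : (N n : ℝ) ≤ X) :
    |(n.re : ℝ)| ≤ 2 * Real.sqrt X ∧ |(n.im : ℝ)| ≤ 2 * Real.sqrt X := by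
  have h1 : (N n : ℝ) = (n.re : ℝ) * n.re - n.re * n.im + n.im * n.im := by
    have := N_cast_int' n
    have h2 : ((N n : ℤ) : ℝ) = ((n.re * n.re - n.re * n.im + n.im * n.im : ℤ) : ℝ) := by rw [this]
    push_cast at h2
    exact h2
  have hX : 0 ≤ X := le_trans (Nat.cast_nonneg _) h
  have hs : Real.sqrt X * Real.sqrt X = X := Real.mul_self_sqrt hX
  have hs0 := Real.sqrt_nonneg X
  rw [h1] at h
  constructor
  · apply abs_le_of_sq_le_sq _ (by positivity)
    nlinarith [sq_nonneg ((n.re : ℝ) - 2 * n.im), sq_nonneg (n.re : ℝ), sq_nonneg (n.im : ℝ)]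
  · apply abs_le_of_sq_le_sq _ (by positivity)
    nlinarith [sq_nonneg ((n.im : ℝ) - 2 * n.re), sq_nonneg (n.re : ℝ), sq_nonneg (n.im : ℝ)]

/-- the absolute constant of the large sieve on `ℤ[ω]` -/
noncomputable def cLS2 : ℝ := 2916 * cZ ^ 2 * 128

lemma cLS2_nonneg : 0 ≤ cLS2 := by unfold cLS2; positivity

/-- **Dual additive large sieve at Farey fractions** `a/q` of `ℤ[ω]`, `q ≡ 1 mod 3`, `N q ≤ Q`. -/
theorem dual_farey_large_sieve {ι : Type*} {R : Finset ι} {a q : ι → O} {Q X : ℝ}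
    (h : FareyFam R a q Q) (hQ : 1 ≤ Q) (hX : 1 ≤ X) (S : Finset O) (hS : ∀ n ∈ S, (N n : ℝ) ≤ X)
    (b : ι → ℂ) :
    ∑ n ∈ S, ‖∑ r ∈ R, b r * e (TrC (toC n * (toC (a r) / toC (q r))))‖ ^ 2
      ≤ cLS2 * (X + Q ^ 2) * ∑ r ∈ R, ‖b r‖ ^ 2 := by
  have hsep := farey_sep h (by linarith)
  set L : ℕ := ⌈2 * Real.sqrt X⌉₊ with hL
  have hL1 : 2 * Real.sqrt X ≤ L := Nat.le_ceil _
  have hL2 : (L : ℝ) < 2 * Real.sqrt X + 1 := Nat.ceil_lt_add_one (by positivity)
  have key := dual_add_large_sieve R (fun r => TrC (toC (a r) / toC (q r)))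
      (fun r => TrC (omC * (toC (a r) / toC (q r)))) (δ := 1 / (2 * Q)) (by positivity)
      (by rw [div_le_iff₀ (by positivity)]; linarith) hsep L (0, 0) b
  have hmap : ∑ n ∈ S, ‖∑ r ∈ R, b r * e (TrC (toC n * (toC (a r) / toC (q r))))‖ ^ 2
      ≤ ∑ n ∈ box L, ‖∑ r ∈ R, b r * e2 (TrC (toC (a r) / toC (q r)))
        (TrC (omC * (toC (a r) / toC (q r)))) ((0, 0) + n)‖ ^ 2 := by
    classical
    have h1 : ∑ n ∈ S, ‖∑ r ∈ R, b r * e (TrC (toC n * (toC (a r) / toC (q r))))‖ ^ 2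
      = ∑ n ∈ S.image (fun n => (n.re, n.im)), ‖∑ r ∈ R, b r * e2 (TrC (toC (a r) / toC (q r)))
        (TrC (omC * (toC (a r) / toC (q r)))) ((0, 0) + n)‖ ^ 2 := by
      rw [Finset.sum_image]
      · refine Finset.sum_congr rfl (fun n _ => ?_)
        congr 2
        refine Finset.sum_congr rfl (fun r _ => ?_)
        congr 1
        rw [e2, ee_eq_e, trC_mul_eq]
        simp
      · intro x _ y _ hxy
        simp only [Prod.mk.injEq] at hxy
        exact QuadraticAlgebra.ext hxy.1 hxy.2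
    rw [h1]
    apply Finset.sum_le_sum_of_subset_of_nonneg
    · intro p hp
      rw [Finset.mem_image] at hp
      obtain ⟨n, hn, rfl⟩ := hp
      obtain ⟨h2, h3⟩ := abs_le_of_N_le (hS n hn)
      rw [box, Finset.mem_product, Finset.mem_Icc, Finset.mem_Icc, ← abs_le, ← abs_le]
      constructor
      · have : |(n.re : ℝ)| ≤ L := h2.trans hL1
        exact_mod_cast this
      · have : |(n.im : ℝ)| ≤ L := h3.trans hL1
        exact_mod_cast this
    · intro _ _ _
      positivity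
  refine hmap.trans (key.trans ?_)
  apply mul_le_mul_of_nonneg_right _ (Finset.sum_nonneg (fun _ _ => by positivity))
  rw [cLS2, mul_assoc (2916 * cZ ^ 2)]
  apply mul_le_mul_of_nonneg_left _ (by positivity)
  have hsq : 1 ≤ Real.sqrt X := by rw [Real.one_le_sqrt]; exact hX
  have hs : Real.sqrt X ^ 2 = X := Real.sq_sqrt (by linarith)
  have h5 : (L : ℝ) + 1 / (1 / (2 * Q)) ≤ 3 * Real.sqrt X + 2 * Q := by
    rw [one_div_one_div]; linarith
  calc ((L : ℝ) + 1 / (1 / (2 * Q))) ^ 2 ≤ (3 * Real.sqrt X + 2 * Q) ^ 2 := by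
        apply pow_le_pow_left₀ _ h5
        positivity
    _ ≤ 128 * (X + Q ^ 2) := by nlinarith [sq_nonneg (Real.sqrt X - Q)]

/-- **Additive large sieve at Farey fractions** of `ℤ[ω]`. -/
theorem farey_large_sieve {ι : Type*} {R : Finset ι} {a q : ι → O} {Q X : ℝ}
    (h : FareyFam R a q Q) (hQ : 1 ≤ Q) (hX : 1 ≤ X) (S : Finset O) (hS : ∀ n ∈ S, (N n : ℝ) ≤ X)
    (c : O → ℂ) :
    ∑ r ∈ R, ‖∑ n ∈ S, c n * e (TrC (toC n * (toC (a r) / toC (q r))))‖ ^ 2
      ≤ cLS2 * (X + Q ^ 2) * ∑ n ∈ S, ‖c n‖ ^ 2 :=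
  duality R S (fun r n => e (TrC (toC n * (toC (a r) / toC (q r)))))
    (mul_nonneg cLS2_nonneg (by positivity))
    (fun b => dual_farey_large_sieve h hQ hX S hS b) c

end Vale.Agent.P006.CLS
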