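import Mathlib
import Vale.Agent.P006.CLS.Farey

/-!
# P006, block CLS, part 3: from additive to multiplicative characters
-/

namespace Vale.Agent.P006.CLS

open Finset Vale.Agent.P001

open scoped ComplexConjugate

/-- **Bessel's inequality** for a finite orthogonal family. -/
theorem bessel {κ α : Type*} (J : Finset κ) (A : Finset α) (χ : κ → α → ℂ) {M : ℝ} (hM : 0 ≤ M)
    (horth : ∀ i ∈ J, ∀ j ∈ J, i ≠ j → ∑ a ∈ A, χ i a * conj (χ j a) = 0)
    (hnorm : ∀ i ∈ J, ∑ a ∈ A, ‖χ i a‖ ^ 2 ≤ M) (S : α → ℂ) :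
    ∑ j ∈ J, ‖∑ a ∈ A, conj (χ j a) * S a‖ ^ 2 ≤ M * ∑ a ∈ A, ‖S a‖ ^ 2 := by
  have h := duality J A (fun j a => conj (χ j a)) hM (fun b => by
    have h1 : ((∑ a ∈ A, ‖∑ j ∈ J, b j * conj (χ j a)‖ ^ 2 : ℝ) : ℂ)
        = ∑ i ∈ J, ∑ j ∈ J, b i * conj (b j) * conj (∑ a ∈ A, χ i a * conj (χ j a)) := by
      push_cast
      have h2 : ∀ a, ((‖∑ j ∈ J, b j * conj (χ j a)‖ : ℂ)) ^ 2
          = ∑ i ∈ J, ∑ j ∈ J, b i * conj (b j) * conj (χ i a * conj (χ j a)) := by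
        intro a
        have := normsq_eq (∑ j ∈ J, b j * conj (χ j a))
        push_cast at this
        rw [this, map_sum, Finset.sum_mul_sum]
        refine Finset.sum_congr rfl (fun r _ => Finset.sum_congr rfl (fun s _ => ?_))
        simp only [map_mul, Complex.conj_conj]
        ring
      simp_rw [h2]
      rw [Finset.sum_comm]
      refine Finset.sum_congr rfl (fun i _ => ?_)
      rw [Finset.sum_comm]
      refine Finset.sum_congr rfl (fun j _ => ?_)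
      rw [← Finset.mul_sum, map_sum]
    have h3 : ((∑ a ∈ A, ‖∑ j ∈ J, b j * conj (χ j a)‖ ^ 2 : ℝ) : ℂ)
        = ((∑ i ∈ J, ‖b i‖ ^ 2 * ∑ a ∈ A, ‖χ i a‖ ^ 2 : ℝ) : ℂ) := by
      rw [h1]
      push_cast
      refine Finset.sum_congr rfl (fun i hi => ?_)
      rw [Finset.sum_eq_single i]
      · have h4 := normsq_eq (b i)
        push_cast at h4
        rw [h4, map_sum]
        congr 1
        refine Finset.sum_congr rfl (fun a _ => ?_)
        have h5 := normsq_eq (χ i a)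
        push_cast at h5
        rw [h5, map_mul, Complex.conj_conj, mul_comm]
      · intro j hj hji
        rw [horth i hi j hj hji.symm, map_zero, mul_zero]
      · intro h; exact absurd hi h
    have h4 : (∑ a ∈ A, ‖∑ j ∈ J, b j * conj (χ j a)‖ ^ 2 : ℝ)
        = (∑ i ∈ J, ‖b i‖ ^ 2 * ∑ a ∈ A, ‖χ i a‖ ^ 2 : ℝ) := by exact_mod_cast h3
    rw [h4, Finset.mul_sum]
    refine Finset.sum_le_sum (fun i hi => ?_)
    rw [mul_comm]
    exact mul_le_mul_of_nonneg_right (hnorm i hi) (by positivity))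
  have h2 := h S
  refine le_trans (le_of_eq ?_) h2
  refine Finset.sum_congr rfl (fun j _ => ?_)
  congr 2
  refine Finset.sum_congr rfl (fun a _ => ?_)
  ring

/-- Data for a family of characters with moduli `q ∈ 𝒬`:
`A q` is a set of reduced residues modulo `q`, `J q` the index set of the characters modulo `q`. -/
structure CharFam {κ : Type*} (𝒬 : Finset O) (A : O → Finset O) (J : O → Finset κ)
    (χ : κ → O → ℂ) (Q : ℝ) : Prop where
  prim : ∀ q ∈ 𝒬, (3 : O) ∣ q - 1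
  le : ∀ q ∈ 𝒬, (N q : ℝ) ≤ Q
  cop : ∀ q ∈ 𝒬, ∀ a ∈ A q, IsCoprime a q
  inj : ∀ q ∈ 𝒬, ∀ a ∈ A q, ∀ b ∈ A q, q ∣ a - b → a = b
  norm : ∀ q ∈ 𝒬, ∀ j ∈ J q, ∑ a ∈ A q, ‖χ j a‖ ^ 2 ≤ N q
  orth : ∀ q ∈ 𝒬, ∀ i ∈ J q, ∀ j ∈ J q, i ≠ j → ∑ a ∈ A q, χ i a * conj (χ j a) = 0
  gauss : ∀ q ∈ 𝒬, ∀ j ∈ J q, ∃ τ : ℂ, ‖τ‖ ^ 2 = N q ∧ ∀ n : O, χ j n * τ
    = ∑ a ∈ A q, conj (χ j a) * e (TrC (toC n * (toC a / toC q)))

lemma ne_zero_of_prim {q : O} (h : (3 : O) ∣ q - 1) : q ≠ 0 := by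
  rintro rfl
  obtain ⟨k, hk⟩ := h
  have h1 : IsUnit (3 : O) := IsUnit.of_mul_eq_one (-k) (by linear_combination hk)
  rw [isUnit_iff_N] at h1
  exact absurd h1 (by decide)

/-- **Multiplicative large sieve on `ℤ[ω]`**, without any loss. -/
theorem char_large_sieve {κ : Type*} {𝒬 : Finset O} {A : O → Finset O} {J : O → Finset κ}
    {χ : κ → O → ℂ} {Q X : ℝ} (h : CharFam 𝒬 A J χ Q) (hQ : 1 ≤ Q) (hX : 1 ≤ X)
    (S : Finset O) (hS : ∀ n ∈ S, (N n : ℝ) ≤ X) (c : O → ℂ) :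
    ∑ q ∈ 𝒬, ∑ j ∈ J q, ‖∑ n ∈ S, c n * χ j n‖ ^ 2 ≤ cLS2 * (X + Q ^ 2) * ∑ n ∈ S, ‖c n‖ ^ 2 := by
  classical
  -- the Farey family
  have hF : FareyFam (𝒬.sigma A) (fun p => p.2) (fun p => p.1) Q := by
    constructor
    · intro r hr
      exact h.prim _ (Finset.mem_sigma.mp hr).1
    · intro r hr
      exact h.cop _ (Finset.mem_sigma.mp hr).1 _ (Finset.mem_sigma.mp hr).2
    · intro r hr
      exact h.le _ (Finset.mem_sigma.mp hr).1
    · rintro ⟨q, a⟩ hr ⟨q', a'⟩ hs hq hd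
      simp only at hq hd
      subst hq
      rw [h.inj q (Finset.mem_sigma.mp hr).1 a (Finset.mem_sigma.mp hr).2 a'
        (Finset.mem_sigma.mp hs).2 hd]
  refine le_trans ?_ (farey_large_sieve hF hQ hX S hS c)
  rw [Finset.sum_sigma]
  refine Finset.sum_le_sum (fun q hq => ?_)
  simp only
  set T : O → ℂ := fun a => ∑ n ∈ S, c n * e (TrC (toC n * (toC a / toC q))) with hT
  have hNq : (0 : ℝ) < N q := by
    have := N_pos (ne_zero_of_prim (h.prim q hq))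
    exact_mod_cast this
  have hb := bessel (J q) (A q) χ hNq.le (h.orth q hq) (h.norm q hq) T
  have h1 : ∀ j ∈ J q, (N q : ℝ) * ‖∑ n ∈ S, c n * χ j n‖ ^ 2
      = ‖∑ a ∈ A q, conj (χ j a) * T a‖ ^ 2 := by
    intro j hj
    obtain ⟨τ, hτ, hg⟩ := h.gauss q hq j hj
    rw [← hτ, ← mul_pow, ← norm_mul]
    congr 2
    rw [Finset.mul_sum]
    calc ∑ n ∈ S, τ * (c n * χ j n) = ∑ n ∈ S, c n * (χ j n * τ) := by
          refine Finset.sum_congr rfl (fun n _ => ?_); ring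
      _ = ∑ n ∈ S, ∑ a ∈ A q, conj (χ j a) * (c n * e (TrC (toC n * (toC a / toC q)))) := by
          refine Finset.sum_congr rfl (fun n _ => ?_)
          rw [hg, Finset.mul_sum]
          refine Finset.sum_congr rfl (fun a _ => ?_)
          ring
      _ = ∑ a ∈ A q, conj (χ j a) * T a := by
          rw [Finset.sum_comm]
          refine Finset.sum_congr rfl (fun a _ => ?_)
          rw [hT, ← Finset.mul_sum]
  have h2 : (N q : ℝ) * ∑ j ∈ J q, ‖∑ n ∈ S, c n * χ j n‖ ^ 2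
      ≤ (N q : ℝ) * ∑ a ∈ A q, ‖T a‖ ^ 2 := by
    rw [Finset.mul_sum, Finset.sum_congr rfl h1]
    exact hb
  exact le_of_mul_le_mul_left h2 hNq

end Vale.Agent.P006.CLS
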