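import Mathlib
import Vale.Agent.P006.CR.Residue
import Vale.Agent.P006.CLS.Char

/-!
# P006, block CLS, part 4: primitive characters modulo a squarefree primary number
-/

namespace Vale.Agent.P006.CLS

open Finset

open scoped ComplexConjugate

/-- the character, as a function on residue classes -/
noncomputable def onRs (q : O) (χ : O → ℂ) (x : Rs q) : ℂ := χ (Function.surjInv (rs_surj q) x)

/-- `χ : O → ℂ` is a primitive Dirichlet character modulo `q`. -/
structure PChar (q : O) (χ : O → ℂ) : Prop where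
  congr : ∀ a b : O, q ∣ a - b → χ a = χ b
  mul : ∀ a b : O, χ (a * b) = χ a * χ b
  one : χ 1 = 1
  norm : ∀ a : O, IsCoprime a q → ‖χ a‖ = 1
  zero : ∀ a : O, ¬ IsCoprime a q → χ a = 0
  ne_zero : q ≠ 0
  gauss : ∀ [NeZero q], ∃ τ : ℂ, ‖τ‖ ^ 2 = N q ∧ ∀ n : O, χ n * τ
    = ∑ x : Rs q, conj (onRs q χ x) * psi q (rs q n * x)

lemma onRs_rs {q : O} {χ : O → ℂ} (h : ∀ a b : O, q ∣ a - b → χ a = χ b) (a : O) :
    onRs q χ (rs q a) = χ a := by
  apply h
  rw [← rs_eq]
  exact Function.surjInv_eq (rs_surj q) (rs q a)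

namespace PChar

variable {q : O} {χ χ' : O → ℂ}

lemma onRs (h : PChar q χ) (a : O) : CLS.onRs q χ (rs q a) = χ a := onRs_rs h.congr a

lemma norm_le (h : PChar q χ) (a : O) : ‖χ a‖ ≤ 1 := by
  by_cases ha : IsCoprime a q
  · exact (h.norm a ha).le
  · rw [h.zero a ha]; simp

lemma conj_mul_self (h : PChar q χ) {a : O} (ha : IsCoprime a q) : conj (χ a) * χ a = 1 := by
  rw [mul_comm, Complex.mul_conj, Complex.normSq_eq_norm_sq, h.norm a ha]; simp

/-- product of primitive characters with coprime moduli -/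
theorem mul_coprime {a b : O} {χ₁ χ₂ : O → ℂ} (h₁ : PChar a χ₁) (h₂ : PChar b χ₂)
    (hab : IsCoprime a b) : PChar (a * b) (fun n => χ₁ n * χ₂ n) := by
  have ha := h₁.ne_zero
  have hb := h₂.ne_zero
  refine ⟨?_, ?_, ?_, ?_, ?_, mul_ne_zero ha hb, ?_⟩
  · intro x y hxy
    rw [h₁.congr x y ((dvd_mul_right a b).trans hxy), h₂.congr x y ((dvd_mul_left b a).trans hxy)]
  · intro x y
    simp only [h₁.mul, h₂.mul]; ring
  · simp [h₁.one, h₂.one]
  · intro x hx
    rw [norm_mul, h₁.norm x hx.of_mul_right_left, h₂.norm x hx.of_mul_right_right, mul_one]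
  · intro x hx
    by_cases h1 : IsCoprime x a
    · have h2 : ¬ IsCoprime x b := fun h2 => hx (h1.mul_right h2)
      rw [h₂.zero x h2, mul_zero]
    · rw [h₁.zero x h1, zero_mul]
  · intro _
    have : NeZero a := ⟨ha⟩
    have : NeZero b := ⟨hb⟩
    obtain ⟨τ₁, hτ₁, hg₁⟩ := h₁.gauss
    obtain ⟨τ₂, hτ₂, hg₂⟩ := h₂.gauss
    refine ⟨conj (χ₁ b) * conj (χ₂ a) * (τ₁ * τ₂), ?_, ?_⟩
    · rw [norm_mul, norm_mul, norm_mul, Complex.norm_conj, Complex.norm_conj,
        h₁.norm b hab.symm, h₂.norm a hab, one_mul, one_mul, mul_pow, hτ₁, hτ₂, N_mul]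
      push_cast
      ring
    · intro n
      rw [sum_crt ha hb hab]
      have hterm : ∀ (x : Rs a) (y : Rs b),
          conj (CLS.onRs (a * b) (fun n => χ₁ n * χ₂ n)
            (mulL b a (a * b) (mul_comm a b) x + mulL a b (a * b) rfl y)) *
          psi (a * b) (rs (a * b) n * (mulL b a (a * b) (mul_comm a b) x + mulL a b (a * b) rfl y))
          = conj (χ₁ b) * conj (χ₂ a) * ((conj (CLS.onRs a χ₁ x) * psi a (rs a n * x)) *
            (conj (CLS.onRs b χ₂ y) * psi b (rs b n * y))) := by
        intro x y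
        obtain ⟨x, rfl⟩ := rs_surj a x
        obtain ⟨y, rfl⟩ := rs_surj b y
        rw [h₁.onRs, h₂.onRs, mulL_rs, mulL_rs, ← map_add, onRs_rs]
        · have e1 : χ₁ (b * x + a * y) = χ₁ b * χ₁ x := by
            rw [← h₁.mul]
            apply h₁.congr
            exact ⟨y, by ring⟩
          have e2 : χ₂ (b * x + a * y) = χ₂ a * χ₂ y := by
            rw [← h₂.mul]
            apply h₂.congr
            exact ⟨x, by ring⟩
          have e3 : psi (a * b) (rs (a * b) n * rs (a * b) (b * x + a * y))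
              = psi a (rs a n * rs a x) * psi b (rs b n * rs b y) := by
            rw [← map_mul, ← map_mul, ← map_mul, mul_add, map_add, AddChar.map_add_eq_mul]
            congr 1
            · rw [← psi_mulL hb (mul_comm a b), mulL_rs]
              congr 2; ring
            · rw [← psi_mulL ha (rfl : a * b = a * b), mulL_rs]
              congr 2; ring
          rw [e1, e2, e3, map_mul, map_mul, map_mul]
          ring
        · intro x y hxy
          rw [h₁.congr x y ((dvd_mul_right a b).trans hxy),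
            h₂.congr x y ((dvd_mul_left b a).trans hxy)]
      simp only [hterm]
      have : χ₁ n * χ₂ n * (conj (χ₁ b) * conj (χ₂ a) * (τ₁ * τ₂))
          = conj (χ₁ b) * conj (χ₂ a) * ((χ₁ n * τ₁) * (χ₂ n * τ₂)) := by ring
      rw [this, hg₁, hg₂, Finset.sum_mul_sum, Finset.mul_sum]
      refine Finset.sum_congr rfl (fun x _ => ?_)
      rw [Finset.mul_sum]

/-- complex conjugate of a primitive character -/
theorem conj_char (h : PChar q χ) : PChar q (fun n => conj (χ n)) := by
  refine ⟨?_, ?_, ?_, ?_, ?_, h.ne_zero, ?_⟩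
  · intro a b hab; rw [h.congr a b hab]
  · intro a b; rw [h.mul, map_mul]
  · rw [h.one, map_one]
  · intro a ha; rw [Complex.norm_conj, h.norm a ha]
  · intro a ha; rw [h.zero a ha, map_zero]
  · intro _
    obtain ⟨τ, hτ, hg⟩ := h.gauss
    have hm1 : IsCoprime (-1 : O) q := ⟨-1, 0, by ring⟩
    refine ⟨conj (χ (-1)) * conj τ, ?_, ?_⟩
    · rw [norm_mul, Complex.norm_conj, Complex.norm_conj, h.norm _ hm1, one_mul, hτ]
    · intro n
      have h1 : χ (-n) = χ (-1) * χ n := by rw [← h.mul]; congr 1; ring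
      have h2 : conj (χ n) * (conj (χ (-1)) * conj τ) = conj (χ (-n) * τ) := by
        rw [h1]; simp only [map_mul]; ring
      rw [h2, hg, map_sum]
      refine Finset.sum_congr rfl (fun x _ => ?_)
      obtain ⟨x, rfl⟩ := rs_surj q x
      rw [h.onRs, map_mul, onRs_rs (χ := fun n => conj (χ n))]
      · congr 1
        rw [← map_mul, ← map_mul, psi_rs, psi_rs, ← e_neg, ← TrC_neg]
        congr 2
        simp only [map_mul, map_neg]
        ring
      · intro a b hab; rw [h.congr a b hab]

/-- the trivial character modulo `1` -/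
theorem one_char : PChar 1 (fun _ => 1) := by
  refine ⟨fun _ _ _ => rfl, fun _ _ => by simp, rfl, fun _ _ => by simp,
    fun a ha => absurd isCoprime_one_right ha, one_ne_zero, ?_⟩
  intro _
  refine ⟨1, by simp, ?_⟩
  intro n
  have hsub : ∀ x y : Rs (1 : O), x = y := by
    intro x y
    obtain ⟨x, rfl⟩ := rs_surj 1 x
    obtain ⟨y, rfl⟩ := rs_surj 1 y
    rw [rs_eq]; exact one_dvd _
  have h1 : ∀ x : Rs (1 : O), conj (CLS.onRs 1 (fun _ => (1 : ℂ)) x) * psi 1 (rs 1 n * x) = 1 := by
    intro x
    rw [hsub (rs 1 n * x) (rs 1 0), psi_rs]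
    simp [CLS.onRs]
  simp only [h1]
  rw [Finset.sum_const, Finset.card_univ, fcard_Rs]
  simp

lemma sum_eq_zero_of_ne [NeZero q] (h : PChar q χ) (h' : PChar q χ') {u : O} (hu : IsCoprime u q)
    (hne : χ u ≠ χ' u) : ∑ x : Rs q, CLS.onRs q χ x * conj (CLS.onRs q χ' x) = 0 := by
  set S := ∑ x : Rs q, CLS.onRs q χ x * conj (CLS.onRs q χ' x) with hS
  obtain ⟨v, w, hvw⟩ := hu
  have huv : rs q u * rs q v = 1 := by
    rw [← map_mul, ← map_one (rs q), rs_eq]
    exact ⟨-w, by linear_combination hvw⟩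
  have hbij : Function.Bijective (fun x : Rs q => rs q u * x) := by
    constructor
    · intro x y hxy
      simp only at hxy
      calc x = rs q v * (rs q u * x) := by rw [← mul_assoc, mul_comm (rs q v), huv, one_mul]
        _ = rs q v * (rs q u * y) := by rw [hxy]
        _ = y := by rw [← mul_assoc, mul_comm (rs q v), huv, one_mul]
    · intro x
      exact ⟨rs q v * x, by beta_reduce; rw [← mul_assoc, huv, one_mul]⟩
  have h1 : S = χ u * conj (χ' u) * S := by
    conv_lhs => rw [hS, ← hbij.sum_comp]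
    rw [hS, Finset.mul_sum]
    refine Finset.sum_congr rfl (fun x _ => ?_)
    obtain ⟨x, rfl⟩ := rs_surj q x
    rw [← map_mul, h.onRs, h'.onRs, h.onRs, h'.onRs, h.mul, h'.mul, map_mul]
    ring
  have hu' : IsCoprime u q := ⟨v, w, hvw⟩
  by_contra hS0
  have h2 : χ u * conj (χ' u) = 1 := by
    have : (χ u * conj (χ' u) - 1) * S = 0 := by linear_combination -h1
    rcases mul_eq_zero.mp this with h3 | h3
    · linear_combination h3
    · exact absurd h3 hS0
  apply hne
  calc χ u = χ u * (conj (χ' u) * χ' u) := by rw [h'.conj_mul_self hu', mul_one]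
    _ = (χ u * conj (χ' u)) * χ' u := by ring
    _ = χ' u := by rw [h2, one_mul]

/-- a nontrivial character modulo a prime is primitive -/
theorem of_prime {π : O} (hπ : Prime π) (hlam : IsCoprime π lam) (χ : O → ℂ)
    (hcongr : ∀ a b : O, π ∣ a - b → χ a = χ b) (hmul : ∀ a b : O, χ (a * b) = χ a * χ b)
    (hone : χ 1 = 1) (hnorm : ∀ a, ¬ π ∣ a → ‖χ a‖ = 1) (hzero : ∀ a, π ∣ a → χ a = 0)
    (hnt : ∃ u, ¬ π ∣ u ∧ χ u ≠ 1) : PChar π χ := by
  have hcop : ∀ a : O, IsCoprime a π ↔ ¬ π ∣ a := by
    intro a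
    rw [isCoprime_comm]
    exact hπ.coprime_iff_not_dvd
  refine ⟨hcongr, hmul, hone, fun a ha => hnorm a ((hcop a).1 ha), fun a ha => hzero a ?_,
    hπ.ne_zero, ?_⟩
  · by_contra h; exact ha ((hcop a).2 h)
  intro _
  set T : O → ℂ := fun n => ∑ x : Rs π, conj (CLS.onRs π χ x) * psi π (rs π n * x) with hT
  have hon : ∀ a, CLS.onRs π χ (rs π a) = χ a := onRs_rs hcongr
  -- the relation for coprime `n`
  have hrel : ∀ n : O, ¬ π ∣ n → T n = χ n * T 1 := by
    intro n hn
    obtain ⟨v, w, hvw⟩ := (hcop n).2 hn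
    have huv : rs π n * rs π v = 1 := by
      rw [← map_mul, ← map_one (rs π), rs_eq]
      exact ⟨-w, by linear_combination hvw⟩
    have hbij : Function.Bijective (fun x : Rs π => rs π v * x) := by
      constructor
      · intro x y hxy
        simp only at hxy
        calc x = rs π n * (rs π v * x) := by rw [← mul_assoc, huv, one_mul]
          _ = rs π n * (rs π v * y) := by rw [hxy]
          _ = y := by rw [← mul_assoc, huv, one_mul]
      · intro x
        exact ⟨rs π n * x, by beta_reduce; rw [← mul_assoc, mul_comm (rs π v), huv, one_mul]⟩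
    have hv : χ n * χ v = 1 := by
      rw [← hmul, ← hone]
      apply hcongr
      exact ⟨-w, by linear_combination hvw⟩
    have hv2 : conj (χ v) = χ n := by
      have h1 : ‖χ n‖ = 1 := hnorm n hn
      have h2 : ‖χ v‖ = 1 := by
        have h9 : ‖χ n * χ v‖ = 1 := by rw [hv]; exact norm_one
        rwa [norm_mul, h1, one_mul] at h9
      have h3 : χ v * conj (χ v) = 1 := by
        rw [Complex.mul_conj, Complex.normSq_eq_norm_sq, h2]; simp
      calc conj (χ v) = (χ n * χ v) * conj (χ v) := by rw [hv, one_mul]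
        _ = χ n * (χ v * conj (χ v)) := by ring
        _ = χ n := by rw [h3, mul_one]
    rw [hT]
    beta_reduce
    rw [← hbij.sum_comp, Finset.mul_sum]
    refine Finset.sum_congr rfl (fun x _ => ?_)
    obtain ⟨x, rfl⟩ := rs_surj π x
    rw [← mul_assoc, huv, map_one, ← map_mul, hon, hon, hmul, map_mul, hv2]
    ring
  have hrel0 : ∀ n : O, π ∣ n → T n = 0 := by
    intro n hn
    have hn0 : rs π n = 0 := rs_eq_zero.2 hn
    obtain ⟨u, hu, hu1⟩ := hnt
    obtain ⟨v, w, hvw⟩ := (hcop u).2 hu
    have huv : rs π u * rs π v = 1 := by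
      rw [← map_mul, ← map_one (rs π), rs_eq]
      exact ⟨-w, by linear_combination hvw⟩
    have hbij : Function.Bijective (fun x : Rs π => rs π u * x) := by
      constructor
      · intro x y hxy
        simp only at hxy
        calc x = rs π v * (rs π u * x) := by rw [← mul_assoc, mul_comm (rs π v), huv, one_mul]
          _ = rs π v * (rs π u * y) := by rw [hxy]
          _ = y := by rw [← mul_assoc, mul_comm (rs π v), huv, one_mul]
      · intro x
        exact ⟨rs π v * x, by beta_reduce; rw [← mul_assoc, huv, one_mul]⟩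
    have h1 : T n = ∑ x : Rs π, conj (CLS.onRs π χ x) := by
      rw [hT]
      refine Finset.sum_congr rfl (fun x _ => ?_)
      rw [hn0, zero_mul, AddChar.map_zero_eq_one, mul_one]
    have h2 : (∑ x : Rs π, conj (CLS.onRs π χ x)) = conj (χ u) * ∑ x : Rs π, conj (CLS.onRs π χ x) := by
      conv_lhs => rw [← hbij.sum_comp]
      rw [Finset.mul_sum]
      refine Finset.sum_congr rfl (fun x _ => ?_)
      obtain ⟨x, rfl⟩ := rs_surj π x
      rw [← map_mul, hon, hon, hmul, map_mul]
    rw [h1]
    by_contra h3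
    have h4 : conj (χ u) = 1 := by
      have : (conj (χ u) - 1) * ∑ x : Rs π, conj (CLS.onRs π χ x) = 0 := by
        linear_combination -h2
      rcases mul_eq_zero.mp this with h5 | h5
      · linear_combination h5
      · exact absurd h5 h3
    apply hu1
    have := congrArg conj h4
    rwa [Complex.conj_conj, map_one] at this
  refine ⟨T 1, ?_, ?_⟩
  · -- Parseval
    have hP : ∑ y : Rs π, ‖∑ x : Rs π, conj (CLS.onRs π χ x) * psi π (y * x)‖ ^ 2
        = (N π : ℝ) * ∑ x : Rs π, ‖CLS.onRs π χ x‖ ^ 2 := by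
      have h1 : ((∑ y : Rs π, ‖∑ x : Rs π, conj (CLS.onRs π χ x) * psi π (y * x)‖ ^ 2 : ℝ) : ℂ)
          = (((N π : ℝ) * ∑ x : Rs π, ‖CLS.onRs π χ x‖ ^ 2 : ℝ) : ℂ) := by
        push_cast
        have h2 : ∀ y : Rs π, ((‖∑ x : Rs π, conj (CLS.onRs π χ x) * psi π (y * x)‖ : ℂ)) ^ 2
            = ∑ x : Rs π, ∑ x' : Rs π, conj (CLS.onRs π χ x) * CLS.onRs π χ x' *
              psi π ((x - x') * y) := by
          intro y
          have := Vale.Agent.P001.normsq_eq (∑ x : Rs π, conj (CLS.onRs π χ x) * psi π (y * x))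
          push_cast at this
          rw [this, map_sum, Finset.sum_mul_sum]
          refine Finset.sum_congr rfl (fun x _ => Finset.sum_congr rfl (fun x' _ => ?_))
          obtain ⟨x, rfl⟩ := rs_surj π x
          obtain ⟨x', rfl⟩ := rs_surj π x'
          obtain ⟨y, rfl⟩ := rs_surj π y
          rw [map_mul (starRingEnd ℂ), Complex.conj_conj]
          have h3 : psi π ((rs π x - rs π x') * rs π y)
              = psi π (rs π y * rs π x) * conj (psi π (rs π y * rs π x')) := by
            rw [← map_sub, ← map_mul, ← map_mul, ← map_mul, psi_rs, psi_rs, psi_rs, ← e_neg,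
              ← e_add, ← TrC_neg, ← TrC_add]
            congr 2
            simp only [map_mul, map_sub]
            ring
          rw [h3]; ring
        simp_rw [h2]
        rw [Finset.sum_comm, Finset.mul_sum]
        refine Finset.sum_congr rfl (fun x _ => ?_)
        rw [Finset.sum_comm, Finset.sum_eq_single x]
        · have h4 := Vale.Agent.P001.normsq_eq (CLS.onRs π χ x)
          push_cast at h4
          rw [h4]
          have h5 : ∀ y : Rs π, conj (CLS.onRs π χ x) * CLS.onRs π χ x * psi π ((x - x) * y)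
              = conj (CLS.onRs π χ x) * CLS.onRs π χ x := by
            intro y
            rw [sub_self, zero_mul, AddChar.map_zero_eq_one, mul_one]
          simp only [h5]
          rw [Finset.sum_const, Finset.card_univ, fcard_Rs, nsmul_eq_mul]
          ring
        · intro x' _ hne
          rw [← Finset.mul_sum]
          obtain ⟨x, rfl⟩ := rs_surj π x
          obtain ⟨x', rfl⟩ := rs_surj π x'
          rw [← map_sub, sum_psi_mul, if_neg, mul_zero]
          intro hd
          have h6 := hlam.dvd_of_dvd_mul_left hd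
          exact hne ((rs_eq.2 h6).symm)
        · intro h; exact absurd (Finset.mem_univ _) h
      exact_mod_cast h1
    have hL : ∑ y : Rs π, ‖∑ x : Rs π, conj (CLS.onRs π χ x) * psi π (y * x)‖ ^ 2
        = ‖T 1‖ ^ 2 * ∑ x : Rs π, ‖CLS.onRs π χ x‖ ^ 2 := by
      rw [Finset.mul_sum]
      refine Finset.sum_congr rfl (fun y _ => ?_)
      obtain ⟨y, rfl⟩ := rs_surj π y
      have h1 : ∑ x : Rs π, conj (CLS.onRs π χ x) * psi π (rs π y * x) = T y := rfl
      rw [h1, hon]
      by_cases hy : π ∣ y
      · rw [hrel0 y hy, hzero y hy]; simp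
      · rw [hrel y hy, norm_mul, hnorm y hy]; ring
    rw [hP] at hL
    have hpos : 0 < ∑ x : Rs π, ‖CLS.onRs π χ x‖ ^ 2 := by
      refine Finset.sum_pos' (fun _ _ => by positivity) ⟨rs π 1, Finset.mem_univ _, ?_⟩
      rw [hon, hone]; simp
    exact (mul_right_cancel₀ hpos.ne' hL).symm
  · intro n
    by_cases hn : π ∣ n
    · rw [hzero n hn, zero_mul]
      exact (hrel0 n hn).symm
    · exact (hrel n hn).symm

end PChar

end Vale.Agent.P006.CLS
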