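import Mathlib
import Vale.Agent.P006.CLS.PChar

/-!
# P006, block CLS, part 5: the large sieve for the characters `(·/k₁)₃ conj (·/k₂)₃`
-/

namespace Vale.Agent.P006.CLS

open Finset

open scoped ComplexConjugate

open Classical in
/-- reduced residues modulo `q` -/
noncomputable def redRes (q : O) : Finset O :=
  if hq : q = 0 then ∅ else
    have : NeZero q := ⟨hq⟩
    (univ.image (Function.surjInv (rs_surj q))).filter (fun a => IsCoprime a q)

lemma sum_redRes {q : O} [NeZero q] (f : O → ℂ) (hf : ∀ a, ¬ IsCoprime a q → f a = 0) :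
    ∑ a ∈ redRes q, f a = ∑ x : Rs q, f (Function.surjInv (rs_surj q) x) := by
  classical
  have hq : q ≠ 0 := NeZero.ne q
  rw [redRes, dif_neg hq]
  rw [Finset.sum_filter_of_ne, Finset.sum_image]
  · intro x _ y _ hxy
    exact Function.injective_surjInv (rs_surj q) hxy
  · intro a _ ha
    by_contra h
    exact ha (hf a h)

lemma card_redRes_le {q : O} (hq : q ≠ 0) : (redRes q).card ≤ N q := by
  classical
  have : NeZero q := ⟨hq⟩
  rw [redRes, dif_neg hq]
  refine (Finset.card_filter_le _ _).trans (Finset.card_image_le.trans ?_)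
  rw [Finset.card_univ, fcard_Rs]

lemma mem_redRes_cop {q a : O} (h : a ∈ redRes q) : IsCoprime a q := by
  classical
  by_cases hq : q = 0
  · rw [redRes, dif_pos hq] at h; exact absurd h (Finset.notMem_empty a)
  · rw [redRes, dif_neg hq] at h; exact (Finset.mem_filter.mp h).2

lemma mem_redRes_inj {q a b : O} (ha : a ∈ redRes q) (hb : b ∈ redRes q) (h : q ∣ a - b) :
    a = b := by
  classical
  by_cases hq : q = 0
  · rw [redRes, dif_pos hq] at ha; exact absurd ha (Finset.notMem_empty a)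
  · rw [redRes, dif_neg hq] at ha hb
    have ha' := (Finset.mem_filter.mp ha).1
    have hb' := (Finset.mem_filter.mp hb).1
    rw [Finset.mem_image] at ha' hb'
    obtain ⟨x, _, rfl⟩ := ha'
    obtain ⟨y, _, rfl⟩ := hb'
    have hx : rs q (Function.surjInv (rs_surj q) x) = x := Function.surjInv_eq (rs_surj q) x
    have hy : rs q (Function.surjInv (rs_surj q) y) = y := Function.surjInv_eq (rs_surj q) y
    rw [← rs_eq, hx, hy] at h
    rw [h]

/-- A family of pairwise different primitive characters gives a `CharFam`. -/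
theorem charFam_of_PChar {κ : Type*} {𝒬 : Finset O} {J : O → Finset κ} {χ : κ → O → ℂ} {Q : ℝ}
    (hprim : ∀ q ∈ 𝒬, Primary q) (hle : ∀ q ∈ 𝒬, (N q : ℝ) ≤ Q)
    (hχ : ∀ q ∈ 𝒬, ∀ j ∈ J q, PChar q (χ j))
    (hne : ∀ q ∈ 𝒬, ∀ i ∈ J q, ∀ j ∈ J q, i ≠ j → ∃ u, IsCoprime u q ∧ χ i u ≠ χ j u) :
    CharFam 𝒬 redRes J χ Q := by
  refine ⟨hprim, hle, fun q _ a ha => mem_redRes_cop ha,
    fun q _ a ha b hb h => mem_redRes_inj ha hb h, ?_, ?_, ?_⟩
  · intro q hq j hj
    have h1 : ∑ a ∈ redRes q, ‖χ j a‖ ^ 2 ≤ ∑ a ∈ redRes q, (1 : ℝ) := by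
      refine Finset.sum_le_sum (fun a _ => ?_)
      have := (hχ q hq j hj).norm_le a
      have h0 := norm_nonneg (χ j a)
      nlinarith
    refine h1.trans ?_
    rw [Finset.sum_const, nsmul_eq_mul, mul_one]
    exact_mod_cast card_redRes_le (hprim q hq).ne_zero
  · intro q hq i hi j hj hij
    have : NeZero q := ⟨(hprim q hq).ne_zero⟩
    obtain ⟨u, hu, hu1⟩ := hne q hq i hi j hj hij
    have h1 := PChar.sum_eq_zero_of_ne (hχ q hq i hi) (hχ q hq j hj) hu hu1
    rw [sum_redRes]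
    · exact h1
    · intro a ha
      rw [(hχ q hq i hi).zero a ha, zero_mul]
  · intro q hq j hj
    have : NeZero q := ⟨(hprim q hq).ne_zero⟩
    obtain ⟨τ, hτ, hg⟩ := (hχ q hq j hj).gauss
    refine ⟨τ, hτ, fun n => ?_⟩
    rw [hg n, sum_redRes]
    · refine Finset.sum_congr rfl (fun x _ => ?_)
      have hx : rs q (Function.surjInv (rs_surj q) x) = x := Function.surjInv_eq (rs_surj q) x
      have h2 : psi q (rs q n * x) = e (TrC (toC n * (toC (Function.surjInv (rs_surj q) x) / toC q))) := by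
        conv_lhs => rw [← hx]
        rw [← map_mul, psi_rs, map_mul, mul_div_assoc]
      rw [h2]
      rfl
    · intro a ha
      rw [(hχ q hq j hj).zero a ha, map_zero, zero_mul]

/-- What we need of the cubic residue symbol `chi b a = (a/b)₃`. -/
structure CubSym (chi : O → O → ℂ) : Prop where
  one_left : ∀ a, chi 1 a = 1
  mul_left : ∀ b b' a, Primary b → Primary b' → chi (b * b') a = chi b a * chi b' a
  congr : ∀ b a a', Primary b → b ∣ a - a' → chi b a = chi b a'
  mul_right : ∀ b a a', Primary b → chi b (a * a') = chi b a * chi b a'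
  one_right : ∀ b, Primary b → chi b 1 = 1
  cube : ∀ π a, Primary π → Prime π → ¬ π ∣ a → chi π a ^ 3 = 1
  zero : ∀ π a, Primary π → Prime π → π ∣ a → chi π a = 0
  nontriv : ∀ π, Primary π → Prime π → ∃ u, ¬ π ∣ u ∧ chi π u ≠ 1

namespace CubSym

variable {chi : O → O → ℂ}

theorem pchar (h : CubSym chi) : ∀ k : O, Primary k → Squarefree k → PChar k (chi k) := by
  apply Primary.induction
  · intro _
    have : chi 1 = fun _ => 1 := by funext a; exact h.one_left a
    rw [this]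
    exact PChar.one_char
  · intro π b hπ hπp hb ih hsq
    have hsqb : Squarefree b := hsq.squarefree_of_dvd (dvd_mul_left b π)
    have hcop : IsCoprime π b := by
      rw [hπ.coprime_iff_not_dvd]
      intro hd
      have : π * π ∣ π * b := mul_dvd_mul_left π hd
      exact hπ.not_isUnit (hsq π this)
    have h1 : PChar π (chi π) := by
      apply PChar.of_prime hπ hπp.isCoprime_lam.symm
      · intro a a' haa; exact h.congr π a a' hπp haa
      · intro a a'; exact h.mul_right π a a' hπp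
      · exact h.one_right π hπp
      · intro a ha
        have h3 := h.cube π a hπp hπ ha
        have h4 : ‖chi π a‖ ^ 3 = 1 := by rw [← norm_pow, h3, norm_one]
        exact (pow_eq_one_iff_of_nonneg (norm_nonneg _) (by norm_num)).mp h4
      · intro a ha; exact h.zero π a hπp hπ ha
      · exact h.nontriv π hπp hπ
    have h2 := h1.mul_coprime (ih hsqb) hcop
    have h3 : chi (π * b) = fun n => chi π n * chi b n := by
      funext n; exact h.mul_left π b n hπp hb
    rw [h3]
    exact h2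

/-- the character attached to a pair -/
noncomputable def pairChar (chi : O → O → ℂ) (p : O × O) (n : O) : ℂ :=
  chi p.1 n * conj (chi p.2 n)

theorem pair_pchar (h : CubSym chi) {k₁ k₂ : O} (h₁ : Primary k₁) (h₂ : Primary k₂)
    (hsq : Squarefree (k₁ * k₂)) : PChar (k₁ * k₂) (pairChar chi (k₁, k₂)) := by
  have hcop : IsCoprime k₁ k₂ := by
    rw [← EuclideanDomain.gcd_isUnit_iff] 
    exact hsq _ (mul_dvd_mul (EuclideanDomain.gcd_dvd_left _ _) (EuclideanDomain.gcd_dvd_right _ _))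
  exact (h.pchar k₁ h₁ (hsq.squarefree_of_dvd (dvd_mul_right _ _))).mul_coprime
    (h.pchar k₂ h₂ (hsq.squarefree_of_dvd (dvd_mul_left _ _))).conj_char hcop

/-- separation of the pairs with the same product -/
theorem pair_sep (h : CubSym chi) {k₁ k₂ l₁ l₂ : O} (h₁ : Primary k₁) (h₂ : Primary k₂)
    (h₁' : Primary l₁) (h₂' : Primary l₂) (hsq : Squarefree (k₁ * k₂)) (heq : k₁ * k₂ = l₁ * l₂)
    {π : O} (hπ : Prime π) (hπp : Primary π) (hd : π ∣ k₁) (hd' : π ∣ l₂) :
    ∃ u, IsCoprime u (k₁ * k₂) ∧ pairChar chi (k₁, k₂) u ≠ pairChar chi (l₁, l₂) u := by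
  obtain ⟨a, rfl⟩ := hd
  obtain ⟨b, rfl⟩ := hd'
  have ha : Primary a := hπp.of_mul h₁
  have hb : Primary b := hπp.of_mul h₂'
  have hab : a * k₂ = l₁ * b := by
    apply mul_left_cancel₀ hπ.ne_zero
    linear_combination heq
  have hcop : IsCoprime π (a * k₂) := by
    rw [hπ.coprime_iff_not_dvd]
    intro hd
    have : π * π ∣ π * a * k₂ := by rw [mul_assoc]; exact mul_dvd_mul_left π hd
    exact hπ.not_isUnit (hsq π this)
  obtain ⟨g, hg, hg1⟩ := h.nontriv π hπp hπ
  obtain ⟨s, t, hst⟩ := hcop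
  set u : O := g * t * (a * k₂) + s * π with hu
  have hug : π ∣ u - g := ⟨s - g * s, by rw [hu]; linear_combination g * hst⟩
  have hu1 : a * k₂ ∣ u - 1 := ⟨g * t - t, by rw [hu]; linear_combination hst⟩
  have hcong : ∀ c : O, Primary c → c ∣ a * k₂ → chi c u = 1 := by
    intro c hc hcd
    rw [h.congr c u 1 hc (hcd.trans hu1), h.one_right c hc]
  have hπu : chi π u = chi π g := h.congr π u g hπp hug
  refine ⟨u, ?_, ?_⟩
  · have e1 : IsCoprime u π := by
      rw [isCoprime_comm, hπ.coprime_iff_not_dvd]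
      intro hd
      apply hg
      have : g = u - (u - g) := by ring
      rw [this]
      exact dvd_sub hd hug
    have e2 : IsCoprime u (a * k₂) := by
      obtain ⟨w, hw⟩ := hu1
      exact ⟨1, -w, by linear_combination hw⟩
    have e3 : π * a * k₂ = π * (a * k₂) := by ring
    rw [e3]
    exact e1.mul_right e2
  · unfold pairChar
    simp only
    rw [h.mul_left π a u hπp ha, h.mul_left π b u hπp hb, hπu,
      hcong a ha (dvd_mul_right _ _), hcong k₂ h₂ (dvd_mul_left _ _),
      hcong l₁ h₁' (hab ▸ dvd_mul_right _ _), hcong b hb (hab ▸ dvd_mul_left _ _)]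
    simp only [mul_one, map_one, one_mul]
    intro hz
    have h3 := h.cube π g hπp hπ hg
    set z := chi π g with hzdef
    have h4 : ‖z‖ = 1 := by
      have h4 : ‖z‖ ^ 3 = 1 := by rw [← norm_pow, h3, norm_one]
      exact (pow_eq_one_iff_of_nonneg (norm_nonneg _) (by norm_num)).mp h4
    have h5 : z * z = 1 := by
      have : z * conj z = 1 := by rw [Complex.mul_conj, Complex.normSq_eq_norm_sq, h4]; simp
      rwa [← hz] at this
    apply hg1
    calc z = z * (z * z) := by rw [h5, mul_one]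
      _ = z ^ 3 := by ring
      _ = 1 := h3

lemma exists_prime_of_ne {k l : O} (hk : Primary k) (_hl : Primary l) (hsq : Squarefree k)
    (hne : ¬ k ∣ l) : ∃ π, Prime π ∧ Primary π ∧ π ∣ k ∧ ¬ π ∣ l := by
  revert hsq hne
  revert k
  intro k hk
  revert hk
  revert k
  apply Primary.induction
  · intro _ h; exact absurd (one_dvd l) h
  · intro π b hπ hπp hb ih hsq hne
    by_cases hd : π ∣ l
    · have hsqb : Squarefree b := hsq.squarefree_of_dvd (dvd_mul_left b π)
      have hcop : IsCoprime π b := by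
        rw [hπ.coprime_iff_not_dvd]
        intro hd
        have : π * π ∣ π * b := mul_dvd_mul_left π hd
        exact hπ.not_isUnit (hsq π this)
      have hb' : ¬ b ∣ l := fun hbl => hne (hcop.mul_dvd hd hbl)
      obtain ⟨ρ, h1, h2, h3, h4⟩ := ih hsqb hb'
      exact ⟨ρ, h1, h2, h3.mul_left π, h4⟩
    · exact ⟨π, hπ, hπp, dvd_mul_right _ _, hd⟩

theorem pair_ne (h : CubSym chi) {k₁ k₂ l₁ l₂ : O} (h₁ : Primary k₁) (h₂ : Primary k₂)
    (h₁' : Primary l₁) (h₂' : Primary l₂) (hsq : Squarefree (k₁ * k₂)) (heq : k₁ * k₂ = l₁ * l₂)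
    (hne : (k₁, k₂) ≠ (l₁, l₂)) :
    ∃ u, IsCoprime u (k₁ * k₂) ∧ pairChar chi (k₁, k₂) u ≠ pairChar chi (l₁, l₂) u := by
  by_cases hd : k₁ ∣ l₁
  · by_cases hd' : l₁ ∣ k₁
    · -- then equal
      exfalso
      obtain ⟨u, hu⟩ := hd
      obtain ⟨v, hv⟩ := hd'
      have huv : u * v = 1 := by
        apply mul_left_cancel₀ h₁.ne_zero
        rw [← mul_assoc, ← hu, mul_one]; exact hv.symm
      have hup : Primary u := h₁.of_mul (hu ▸ h₁')
      have hu1 : u = 1 := hup.eq_one (IsUnit.of_mul_eq_one v huv)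
      rw [hu1, mul_one] at hu
      subst hu
      have : k₂ = l₂ := mul_left_cancel₀ h₁.ne_zero heq
      exact hne (by rw [this])
    · obtain ⟨π, hπ, hπp, hp1, hp2⟩ := exists_prime_of_ne h₁' h₁
        ((heq ▸ hsq).squarefree_of_dvd (dvd_mul_right _ _)) hd'
      have h3 : π ∣ k₂ := by
        have h4 : π ∣ k₁ * k₂ := heq ▸ (hp1.mul_right l₂)
        exact (hπ.dvd_or_dvd h4).resolve_left hp2
      obtain ⟨u, hu, hu1⟩ := pair_sep h h₁' h₂' h₁ h₂ (heq ▸ hsq) heq.symm hπ hπp hp1 h3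
      exact ⟨u, heq ▸ hu, hu1.symm⟩
  · obtain ⟨π, hπ, hπp, hp1, hp2⟩ := exists_prime_of_ne h₁ h₁'
      (hsq.squarefree_of_dvd (dvd_mul_right _ _)) hd
    have h3 : π ∣ l₂ := by
      have h4 : π ∣ l₁ * l₂ := heq ▸ (hp1.mul_right k₂)
      exact (hπ.dvd_or_dvd h4).resolve_left hp2
    exact pair_sep h h₁ h₂ h₁' h₂' hsq heq hπ hπp hp1 h3

/-- **CLS-3**: large sieve for the characters `chi_{k₁} conj chi_{k₂}`, `N(k₁k₂) ≤ Q`. -/
theorem pair_large_sieve (h : CubSym chi) {Q X : ℝ} (hQ : 1 ≤ Q) (hX : 1 ≤ X)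
    (P : Finset (O × O)) (hP : ∀ p ∈ P, Primary p.1 ∧ Primary p.2 ∧ Squarefree (p.1 * p.2) ∧
      (N (p.1 * p.2) : ℝ) ≤ Q)
    (S : Finset O) (hS : ∀ n ∈ S, (N n : ℝ) ≤ X) (c : O → ℂ) :
    ∑ p ∈ P, ‖∑ n ∈ S, c n * (chi p.1 n * conj (chi p.2 n))‖ ^ 2
      ≤ cLS2 * (X + Q ^ 2) * ∑ n ∈ S, ‖c n‖ ^ 2 := by
  classical
  set 𝒬 : Finset O := P.image (fun p => p.1 * p.2) with h𝒬
  set J : O → Finset (O × O) := fun q => P.filter (fun p => p.1 * p.2 = q) with hJ
  have hfam : CharFam 𝒬 redRes J (pairChar chi) Q := by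
    apply charFam_of_PChar
    · intro q hq
      rw [h𝒬, Finset.mem_image] at hq
      obtain ⟨p, hp, rfl⟩ := hq
      exact (hP p hp).1.mul (hP p hp).2.1
    · intro q hq
      rw [h𝒬, Finset.mem_image] at hq
      obtain ⟨p, hp, rfl⟩ := hq
      exact (hP p hp).2.2.2
    · intro q _ p hp
      rw [hJ, Finset.mem_filter] at hp
      obtain ⟨hp, rfl⟩ := hp
      obtain ⟨e1, e2, e3, _⟩ := hP p hp
      exact pair_pchar h e1 e2 e3
    · intro q _ p hp p' hp' hne
      rw [hJ, Finset.mem_filter] at hp hp'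
      obtain ⟨hp, rfl⟩ := hp
      obtain ⟨hp', heq⟩ := hp'
      obtain ⟨e1, e2, e3, _⟩ := hP p hp
      obtain ⟨e1', e2', _, _⟩ := hP p' hp'
      exact pair_ne h e1 e2 e1' e2' e3 heq.symm hne
  have key := char_large_sieve hfam hQ hX S hS c
  refine le_trans (le_of_eq ?_) key
  have hfib := Finset.sum_fiberwise_of_maps_to (s := P) (t := 𝒬) (g := fun p => p.1 * p.2)
    (fun p hp => Finset.mem_image_of_mem _ hp) (fun j => ‖∑ n ∈ S, c n * pairChar chi j n‖ ^ 2)
  exact hfib.symm

end CubSym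

end Vale.Agent.P006.CLS
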