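import Mathlib
import Vale.Agent.P006.CR.Symbol
import Vale.Agent.P006.CLS.Pair

/-!
# P006, block CLS, part 6: the large sieve for the cubic residue symbol

`sym a b = (a/b)₃`.
-/

namespace Vale.Agent.P006

open Finset
open scoped ComplexConjugate

/-- the cubic symbol modulo a prime (not above 3) is a nontrivial character -/
theorem CLS.exists_sym_ne_one' {π : O} (hπ : Prime π) (hl : ¬ lam ∣ π) :
    ∃ u, ¬ π ∣ u ∧ sym u π ≠ 1 := by
  have : Fact (Prime π) := ⟨hπ⟩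
  obtain ⟨g, hg⟩ := IsCyclic.exists_generator (α := (Rs π)ˣ)
  have hcard : Nat.card (Rs π)ˣ = N π - 1 := by
    rw [Nat.card_units, card_Rs]
  have hord : orderOf g = N π - 1 := by
    rw [orderOf_eq_card_of_forall_mem_zpowers hg, hcard]
  obtain ⟨u, hu⟩ := rs_surj π (g : Rs π)
  have hu0 : ¬ π ∣ u := by
    rw [← rs_eq_zero, hu]
    exact g.ne_zero
  refine ⟨u, hu0, ?_⟩
  intro h1
  have h4 := four_le_N hπ hl
  have hspec := symP_spec (a := u) hπ hl
  rw [← sym_prime hπ, h1, ← rs_eq_zero, map_sub, map_pow, map_one, hu, sub_eq_zero] at hspec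
  have h5 : g ^ ((N π - 1) / 3) = 1 := by
    apply Units.ext
    rw [Units.val_pow_eq_pow_val, Units.val_one]
    exact hspec
  have h6 := orderOf_dvd_of_pow_eq_one h5
  rw [hord] at h6
  have h7 := Nat.le_of_dvd (by omega) h6
  omega

namespace CLS

theorem toC_om_ne_one : toC om ≠ 1 := by
  rw [← map_one toC, Ne, toC_inj]; decide

/-- the cubic residue symbol has the properties used in the large sieve -/
theorem cubSym : CubSym (fun b a => toC (sym a b)) where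
  one_left a := by rw [sym_one_right, map_one]
  mul_left b b' a hb hb' := by
    simp only [sym_mul_right a hb.ne_zero hb'.ne_zero, map_mul]
  congr b a a' _ h := by simp only [sym_periodic h]
  mul_right b a a' _ := by simp only [sym_mul_left, map_mul]
  one_right b _ := by simp only [sym_one_left, map_one]
  cube π a _ hπ h := by
    have hc : IsCoprime a π := by
      rw [isCoprime_comm]; exact hπ.coprime_iff_not_dvd.2 h
    rw [← map_pow, sym_cube hc, map_one]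
  zero π a _ hπ h := by
    have : ¬ IsCoprime a π := by
      rw [isCoprime_comm, hπ.coprime_iff_not_dvd]; exact fun hn => hn h
    rw [sym_eq_zero.2 this, map_zero]
  nontriv π hp hπ := by
    obtain ⟨u, hu, h1⟩ := exists_sym_ne_one' hπ hp.not_lam_dvd
    refine ⟨u, hu, ?_⟩
    intro h
    apply h1
    apply toC_injective
    rw [h, map_one]

/-- **CLS-3.** The large sieve inequality, without any loss, for the characters
`n ↦ (n/k₁)₃ (n/k₂)₃²` with `k₁ k₂` squarefree and `N(k₁ k₂) ≤ Q`; `n` runs over arbitrary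
elements of `O` with `N n ≤ X`. -/
theorem large_sieve {Q X : ℝ} (hQ : 1 ≤ Q) (hX : 1 ≤ X)
    (P : Finset (O × O)) (hP : ∀ p ∈ P, Primary p.1 ∧ Primary p.2 ∧ Squarefree (p.1 * p.2) ∧
      (N (p.1 * p.2) : ℝ) ≤ Q)
    (S : Finset O) (hS : ∀ n ∈ S, (N n : ℝ) ≤ X) (c : O → ℂ) :
    ∑ p ∈ P, ‖∑ n ∈ S, c n * (toC (sym n p.1) * toC (sym n p.2) ^ 2)‖ ^ 2
      ≤ cLS2 * (X + Q ^ 2) * ∑ n ∈ S, ‖c n‖ ^ 2 := by
  have h := cubSym.pair_large_sieve hQ hX P hP S hS c
  simpa only [conj_sym] using h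

/-- dual form of `large_sieve` -/
theorem dual_large_sieve {Q X : ℝ} (hQ : 1 ≤ Q) (hX : 1 ≤ X)
    (P : Finset (O × O)) (hP : ∀ p ∈ P, Primary p.1 ∧ Primary p.2 ∧ Squarefree (p.1 * p.2) ∧
      (N (p.1 * p.2) : ℝ) ≤ Q)
    (S : Finset O) (hS : ∀ n ∈ S, (N n : ℝ) ≤ X) (b : O × O → ℂ) :
    ∑ n ∈ S, ‖∑ p ∈ P, b p * (toC (sym n p.1) * toC (sym n p.2) ^ 2)‖ ^ 2
      ≤ cLS2 * (X + Q ^ 2) * ∑ p ∈ P, ‖b p‖ ^ 2 :=
  duality S P (fun n p => toC (sym n p.1) * toC (sym n p.2) ^ 2)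
    (mul_nonneg cLS2_nonneg (by positivity)) (fun c => large_sieve hQ hX P hP S hS c) b

/-- single moduli: `∑_{k} |∑_n c_n (n/k)₃|² ≤ C (X + Q²) ∑ |c_n|²` -/
theorem large_sieve_single {Q X : ℝ} (hQ : 1 ≤ Q) (hX : 1 ≤ X)
    (P : Finset O) (hP : ∀ k ∈ P, Primary k ∧ Squarefree k ∧ (N k : ℝ) ≤ Q)
    (S : Finset O) (hS : ∀ n ∈ S, (N n : ℝ) ≤ X) (c : O → ℂ) :
    ∑ k ∈ P, ‖∑ n ∈ S, c n * toC (sym n k)‖ ^ 2
      ≤ cLS2 * (X + Q ^ 2) * ∑ n ∈ S, ‖c n‖ ^ 2 := by
  classical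
  have h := large_sieve hQ hX (P.image (fun k => (k, (1 : O)))) (fun p hp => by
    rw [Finset.mem_image] at hp
    obtain ⟨k, hk, rfl⟩ := hp
    obtain ⟨h1, h2, h3⟩ := hP k hk
    exact ⟨h1, primary_one, by simpa using h2, by simpa using h3⟩) S hS c
  rw [Finset.sum_image] at h
  · simpa using h
  · intro x _ y _ hxy
    simpa using hxy

end CLS

end Vale.Agent.P006
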