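import Mathlib
import Vale.Agent.P006.CR.Reciprocity
import Vale.Agent.P006.CLS.Final

/-!
# P006, block CLS, part 7: the large sieve in reciprocal form, `∑_{k₁,k₂} |∑_n c_n (k₁/n)(k₂/n)²|²`
-/

namespace Vale.Agent.P006.CLS

open Finset

/-- **[CLS]** reciprocal form of `large_sieve`: `S` a finite set of primary elements. -/
theorem large_sieve_recip {Q X : ℝ} (hQ : 1 ≤ Q) (hX : 1 ≤ X)
    (P : Finset (O × O)) (hP : ∀ p ∈ P, Primary p.1 ∧ Primary p.2 ∧ Squarefree (p.1 * p.2) ∧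
      (N (p.1 * p.2) : ℝ) ≤ Q)
    (S : Finset O) (hS : ∀ n ∈ S, Primary n ∧ (N n : ℝ) ≤ X) (c : O → ℂ) :
    ∑ p ∈ P, ‖∑ n ∈ S, c n * (toC (sym p.1 n) * toC (sym p.2 n) ^ 2)‖ ^ 2
      ≤ cLS2 * (X + Q ^ 2) * ∑ n ∈ S, ‖c n‖ ^ 2 := by
  have h := large_sieve hQ hX P hP S (fun n hn => (hS n hn).2) c
  refine le_trans (le_of_eq ?_) h
  refine Finset.sum_congr rfl (fun p hp => ?_)
  congr 2
  refine Finset.sum_congr rfl (fun n hn => ?_)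
  rw [recip (hP p hp).1 (hS n hn).1, recip (hP p hp).2.1 (hS n hn).1]

/-- reciprocal form for single `k` -/
theorem large_sieve_single_recip {Q X : ℝ} (hQ : 1 ≤ Q) (hX : 1 ≤ X)
    (P : Finset O) (hP : ∀ k ∈ P, Primary k ∧ Squarefree k ∧ (N k : ℝ) ≤ Q)
    (S : Finset O) (hS : ∀ n ∈ S, Primary n ∧ (N n : ℝ) ≤ X) (c : O → ℂ) :
    ∑ k ∈ P, ‖∑ n ∈ S, c n * toC (sym k n)‖ ^ 2
      ≤ cLS2 * (X + Q ^ 2) * ∑ n ∈ S, ‖c n‖ ^ 2 := by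
  have h := large_sieve_single hQ hX P hP S (fun n hn => (hS n hn).2) c
  refine le_trans (le_of_eq ?_) h
  refine Finset.sum_congr rfl (fun k hk => ?_)
  congr 2
  refine Finset.sum_congr rfl (fun n hn => ?_)
  rw [recip (hP k hk).1 (hS n hn).1]

open Classical in
/-- the pairs `(k₁, k₂)` of coprime squarefree primary elements with `N k₁ ≤ Q₁`, `N k₂ ≤ Q₂`,
inside given finite sets -/
theorem large_sieve_box {Q₁ Q₂ X : ℝ} (hQ₁ : 1 ≤ Q₁) (hQ₂ : 1 ≤ Q₂) (hX : 1 ≤ X)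
    (P₁ P₂ : Finset O) (hP₁ : ∀ k ∈ P₁, Primary k ∧ Squarefree k ∧ (N k : ℝ) ≤ Q₁)
    (hP₂ : ∀ k ∈ P₂, Primary k ∧ Squarefree k ∧ (N k : ℝ) ≤ Q₂)
    (S : Finset O) (hS : ∀ n ∈ S, Primary n ∧ (N n : ℝ) ≤ X) (c : O → ℂ) :
    ∑ p ∈ (P₁ ×ˢ P₂).filter (fun p => IsCoprime p.1 p.2),
      ‖∑ n ∈ S, c n * (toC (sym p.1 n) * toC (sym p.2 n) ^ 2)‖ ^ 2
      ≤ cLS2 * (X + (Q₁ * Q₂) ^ 2) * ∑ n ∈ S, ‖c n‖ ^ 2 := by
  have hQ : 1 ≤ Q₁ * Q₂ := by nlinarith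
  refine large_sieve_recip hQ hX _ (fun p hp => ?_) S hS c
  rw [Finset.mem_filter, Finset.mem_product] at hp
  obtain ⟨⟨h1, h2⟩, hc⟩ := hp
  obtain ⟨a1, a2, a3⟩ := hP₁ _ h1
  obtain ⟨b1, b2, b3⟩ := hP₂ _ h2
  refine ⟨a1, b1, ?_, ?_⟩
  · rw [squarefree_mul_iff]
    exact ⟨hc.isRelPrime, a2, b2⟩
  · rw [N_mul]
    push_cast
    exact mul_le_mul a3 b3 (Nat.cast_nonneg _) (by linarith)

end Vale.Agent.P006.CLS
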